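import Vale.Agent.P078.Quad.Cov.Rows

/-! The weighted rows are moved by a contraction; the weighted budget is moved by one too. -/

namespace Vale.Agent.P078.Quad

set_option linter.unusedSectionVars false

open Filter Topology ComplexOrder
open Vale.Agent.P078.Tracial Vale.Agent.P078.AllMasa

variable {M X : Type} [CStarAlgebra M] [PartialOrder M] [StarOrderedRing M]
variable [TopologicalSpace X] [CompactSpace X] [T2Space X] [TotallyDisconnectedSpace X]
variable {r : ℕ} {d : WData X r} {C : SCore M X} {hF : ∀ c, (d.F c).FromNrm C}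

namespace WData

theorem adj_lwS (hd : d.OkW) (c : Fin r) : C.Adj (d.lwS C hF c) (d.ltS C hF c) := by
  have h := ((SCore.adj_mulS (C := C) (d.n c)).mul (LData.adj_lcS (hF := hF) hd.base c)).mul
    (SCore.adj_mulS (C := C) (d.μ c))
  rwa [← mul_assoc] at h

theorem nrm_three_le (hd : d.OkW) {G : M} (hG : 0 ≤ G) (a : M) (A : C.ops) (c : Fin r)
    {u v : C(X, ℝ)} (hu : ∀ x, |u x| ≤ d.B) (hv : ∀ x, |v x| ≤ d.B) :
    CovForm.nrm (V := C.ops) (C.form G a) (A * (C.mulS u * d.toLData.lcS C hF c * C.mulS v)) ≤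
      2 * d.B ^ 3 * CovForm.nrm (V := C.ops) (C.form G a) A := by
  have hB := hd.base.B_pos.le
  rw [← mul_assoc, ← mul_assoc]
  refine (C.nrm_mulS_le hG a _ hB hv).trans ?_
  have h1 := LData.nrm_lcS_le (hF := hF) hd.base hG a (A * C.mulS u) c
  have h2 := mul_le_mul_of_nonneg_left (C.nrm_mulS_le hG a A hB hu)
    (by linarith : 0 ≤ 2 * d.B)
  have h3 := mul_le_mul_of_nonneg_left (h1.trans h2) hB
  linarith

theorem abs_n_le (hd : d.OkW) (c : Fin r) (x : X) : |d.n c x| ≤ d.B := by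
  rw [abs_of_pos (hd.n_pos c x)]; exact hd.n_le c x

theorem abs_μ_le (hd : d.OkW) (c : Fin r) (x : X) : |d.μ c x| ≤ d.B := by
  rw [abs_of_pos (hd.μ_pos c x)]; exact hd.μ_le c x

theorem nrm_lwS_le (hd : d.OkW) {G : M} (hG : 0 ≤ G) (a : M) (A : C.ops) (c : Fin r) :
    CovForm.nrm (V := C.ops) (C.form G a) (A * d.lwS C hF c) ≤
      2 * d.B ^ 3 * CovForm.nrm (V := C.ops) (C.form G a) A :=
  nrm_three_le hd hG a A c (abs_n_le hd c) (abs_μ_le hd c)

theorem nrm_ltS_le (hd : d.OkW) {G : M} (hG : 0 ≤ G) (a : M) (A : C.ops) (c : Fin r) :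
    CovForm.nrm (V := C.ops) (C.form G a) (A * d.ltS C hF c) ≤
      2 * d.B ^ 3 * CovForm.nrm (V := C.ops) (C.form G a) A :=
  nrm_three_le hd hG a A c (abs_μ_le hd c) (abs_n_le hd c)

theorem ipR_xW (hd : d.OkW) (G a : M) (u v : Fin r → C.ops) :
    LData.ipR C G a (d.xW C hF u) v =
      d.TW⁻¹ * C.form G a (d.rowSumW C hF u) (d.rowSumW C hF v) := by
  rw [LData.ipR_apply]
  simp only [xW_apply, map_smul, LinearMap.smul_apply, smul_eq_mul, adj_lwS hd _ G a,
    ← Finset.mul_sum, ← map_sum, rowSumW_apply]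

theorem ipR_xW_symm (hd : d.OkW) {G : M} (hG : IsSelfAdjoint G) (a : M) (u v : Fin r → C.ops) :
    LData.ipR C G a (d.xW C hF u) v = LData.ipR C G a u (d.xW C hF v) := by
  have hs : ∀ u v : Fin r → C.ops, LData.ipR C G a u v = LData.ipR C G a v u := fun u v => by
    simp only [LData.ipR_apply, C.form_symm hG a]
  rw [hs u (d.xW C hF v), ipR_xW hd, ipR_xW hd, C.form_symm hG a]

theorem isPosContr_xW (hd : d.OkW) {G : M} (hG : 0 ≤ G) (a : M) :
    CovForm.IsPosContr (V := Fin r → C.ops) (LData.ipR C G a) (d.xW C hF) := by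
  have hI := C.isSemi_form hG a
  have hR := LData.isSemi_ipR (r := r) C hG a
  refine ⟨fun u v => ipR_xW_symm hd (IsSelfAdjoint.of_nonneg hG) a u v, fun v => ?_, fun v => ?_⟩
  · rw [hR.symm, ipR_xW hd]
    exact mul_nonneg (inv_nonneg.2 (TW_pos hd).le) (hI.nonneg _)
  · rw [hR.symm, ipR_xW hd, inv_mul_le_iff₀ (TW_pos hd)]
    set n1 : C.ops → ℝ := CovForm.nrm (V := C.ops) (C.form G a)
    have hB3 : (0 : ℝ) ≤ 2 * d.B ^ 3 := by have := hd.base.B_pos; positivity
    have h1 : n1 (d.rowSumW C hF v) ^ 2 ≤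
        2 * d.B ^ 3 * (∑ c, n1 (v c)) * n1 (d.rowSumW C hF v) := by
      rw [CovForm.nrm_sq hI]
      conv_lhs => enter [1, 2]; rw [rowSumW_apply]
      simp only [map_sum, LinearMap.sum_apply, Finset.mul_sum, Finset.sum_mul]
      refine Finset.sum_le_sum fun c _ => (le_of_abs_le (CovForm.abs_le_nrm hI _ _)).trans ?_
      exact mul_le_mul_of_nonneg_right (nrm_ltS_le hd hG a _ c) (CovForm.nrm_nonneg _)
    have h0 : 0 ≤ n1 (d.rowSumW C hF v) := CovForm.nrm_nonneg _
    have hS : 0 ≤ 2 * d.B ^ 3 * ∑ c, n1 (v c) :=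
      mul_nonneg hB3 (Finset.sum_nonneg fun c _ => CovForm.nrm_nonneg _)
    have h2 : n1 (d.rowSumW C hF v) ≤ 2 * d.B ^ 3 * ∑ c, n1 (v c) := by
      rcases h0.eq_or_lt with h | h
      · rw [← h]; exact hS
      · exact le_of_mul_le_mul_right (by rwa [sq] at h1) h
    have h3 : (∑ c, n1 (v c)) ^ 2 ≤ (r : ℝ) * ∑ c, n1 (v c) ^ 2 := by
      simpa using sq_sum_le_card_mul_sum_sq (s := (Finset.univ : Finset (Fin r)))
        (f := fun c => n1 (v c))
    have h4 : ∑ c, n1 (v c) ^ 2 = LData.ipR C G a v v := by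
      simp only [n1, CovForm.nrm_sq hI, LData.ipR_apply]
    have h5 := hR.nonneg v
    calc C.form G a (d.rowSumW C hF v) (d.rowSumW C hF v) = n1 (d.rowSumW C hF v) ^ 2 :=
          (CovForm.nrm_sq hI _).symm
      _ ≤ (2 * d.B ^ 3 * ∑ c, n1 (v c)) ^ 2 := pow_le_pow_left₀ h0 h2 2
      _ ≤ (2 * d.B ^ 3) ^ 2 * ((r : ℝ) * LData.ipR C G a v v) := by
          rw [mul_pow, ← h4]
          exact mul_le_mul_of_nonneg_left h3 (sq_nonneg _)
      _ ≤ d.TW * LData.ipR C G a v v := by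
          rw [TW]; nlinarith [mul_nonneg (sq_nonneg (2 * d.B ^ 3)) h5]

theorem ipR_rowW (hd : d.OkW) {G : M} (hG : IsSelfAdjoint G) (a : M) (W V : C.ops) (c : Fin r)
    (m : ℕ) :
    LData.ipR C G a (d.rowW C hF W c m) (d.rowW C hF V c m) =
        C.form G a (W * C.mulS (d.act c)) (V * d.RW C hF c (2 * m)) ∧
      LData.ipR C G a (d.rowW C hF W c m) (d.rowW C hF V c m) =
        C.form G a (W * d.RW C hF c (2 * m)) (V * C.mulS (d.act c)) := by
  have hz : ∀ u v : Fin r → C.ops, LData.ipR C G a (oneSub (V := Fin r → C.ops) (d.xW C hF) u) v =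
      LData.ipR C G a u (oneSub (V := Fin r → C.ops) (d.xW C hF) v) := fun u v => by
    simp [oneSub_apply, map_sub, ipR_xW_symm hd hG a u v]
  have hsym : ∀ u v : Fin r → C.ops, LData.ipR C G a u v = LData.ipR C G a v u := fun u v => by
    simp only [LData.ipR_apply, C.form_symm hG a]
  have key : ∀ W V : C.ops, LData.ipR C G a (d.rowW C hF W c m) (d.rowW C hF V c m) =
      C.form G a (W * C.mulS (d.act c)) (V * d.RW C hF c (2 * m)) := fun W V => by
    refine (CovForm.symm_pow (V := Fin r → C.ops) hz m (Pi.single c (W * C.mulS (d.act c)))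
      (d.rowW C hF V c m)).trans ?_
    simp only [rowW]
    rw [← Module.End.mul_apply, ← pow_add, LData.ipR_single, ← two_mul]
    exact congrArg _ (rowW_eq_mul (hF := hF) hd V c c (2 * m))
  exact ⟨key W V, by rw [hsym, key V W, C.form_symm hG a]⟩

theorem form_HW_key (hd : d.OkW) (W : C.ops) (c : Fin r) (m : ℕ) {G : M} (hG : 0 ≤ G) (a : M) :
    C.form G a (W * d.HW C hF c m) (W * d.HW C hF c m)
        ≤ C.form G a (W * C.mulS (d.act c)) (W * d.HW C hF c m) ∧
      C.form G a (W * C.mulS (d.act c)) (W * d.HW C hF c m)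
        ≤ C.form G a (W * C.mulS (d.act c)) (W * C.mulS (d.act c)) := by
  have hR := LData.isSemi_ipR (r := r) C hG a
  have hz := (isPosContr_xW (hF := hF) hd hG a).compl
  set z : Module.End ℝ (Fin r → C.ops) := oneSub (V := Fin r → C.ops) (d.xW C hF) with hzdef
  have hz' : CovForm.IsPosContr (V := Fin r → C.ops) (LData.ipR C G a) z := hz
  have hpow : ∀ u v, LData.ipR C G a ((z ^ (2 * m)) u) v =
      LData.ipR C G a u ((z ^ (2 * m)) v) :=
    CovForm.symm_pow (V := Fin r → C.ops) hz'.symm (2 * m)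
  have hP : CovForm.IsPosContr (V := Fin r → C.ops) (LData.ipR C G a) (z ^ (2 * m)) := by
    refine ⟨hpow, fun v => ?_, fun v => ?_⟩
    · rw [two_mul, pow_add, Module.End.mul_apply,
        ← CovForm.symm_pow (V := Fin r → C.ops) hz'.symm m]
      exact hR.nonneg _
    · rw [two_mul, pow_add, Module.End.mul_apply,
        ← CovForm.symm_pow (V := Fin r → C.ops) hz'.symm m, ← CovForm.nrm_sq hR,
        ← CovForm.nrm_sq hR v]
      exact pow_le_pow_left₀ (CovForm.nrm_nonneg _) (hz'.nrm_pow_le hR m v) 2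
  set u : Fin r → C.ops := Pi.single c (W * C.mulS (d.act c)) with hu
  set w : Module.End ℝ (Fin r → C.ops) := oneSub (V := Fin r → C.ops) (z ^ (2 * m)) with hw
  have hc : w u c = W * d.HW C hF c m := by
    rw [hw, oneSub_apply, Pi.sub_apply, hu, Pi.single_eq_same, ← hu,
      HW, RW, show (z ^ (2 * m)) u c = d.rowW C hF W c (2 * m) c from rfl, rowW_eq_mul hd]
    exact Subtype.ext (LinearMap.ext fun f => by simp [mul_sub])
  have hwP : CovForm.IsPosContr (V := Fin r → C.ops) (LData.ipR C G a) w := hP.compl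
  have h1 := hwP.sq_le hR u
  have h2 := hwP.le_one u
  have e1 : ∀ v, LData.ipR C G a u v = C.form G a (W * C.mulS (d.act c)) (v c) := fun v => by
    rw [hu, LData.ipR_single]
  rw [e1, hc] at h1 h2
  rw [e1, hu, Pi.single_eq_same] at h2
  refine ⟨le_trans ?_ h1, h2⟩
  rw [LData.ipR_apply, ← hc]
  exact Finset.single_le_sum
    (f := fun c' => C.form G a (w u c') (w u c'))
    (fun c' _ => (C.isSemi_form hG a).nonneg _) (Finset.mem_univ c)

/-- The normalised square of the weighted budget. -/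
noncomputable def yWOp (d : WData X r) (C : SCore M X) (hF : ∀ c, (d.F c).FromNrm C) : C.ops :=
  d.TW⁻¹ • ∑ c, d.lwS C hF c * d.ltS C hF c

/-- The contraction on single operators. -/
noncomputable def yW (d : WData X r) (C : SCore M X) (hF : ∀ c, (d.F c).FromNrm C) :
    Module.End ℝ C.ops :=
  LinearMap.mulRight ℝ (d.yWOp C hF)

theorem form_yW (hd : d.OkW) (G a : M) (v : C.ops) :
    C.form G a v (d.yW C hF v) =
      d.TW⁻¹ * ∑ c, C.form G a (v * d.lwS C hF c) (v * d.lwS C hF c) := by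
  simp only [yW, yWOp, LinearMap.mulRight_apply, mul_smul_comm, map_smul, smul_eq_mul,
    Finset.mul_sum, map_sum, ← mul_assoc, adj_lwS hd _ G a v]

theorem isPosContr_yW (hd : d.OkW) {G : M} (hG : 0 ≤ G) (a : M) :
    CovForm.IsPosContr (V := C.ops) (C.form G a) (d.yW C hF) := by
  have hI := C.isSemi_form hG a
  have hadj : C.Adj (d.yWOp C hF) (d.yWOp C hF) :=
    (SCore.adj_sum _ _ _ fun c _ => (adj_lwS hd c).mul (adj_lwS hd c).swap).smul _
  refine ⟨fun u v => ?_, fun v => ?_, fun v => ?_⟩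
  · simp only [yW, LinearMap.mulRight_apply, hadj G a]
  · rw [form_yW hd]
    exact mul_nonneg (inv_nonneg.2 (TW_pos hd).le) (Finset.sum_nonneg fun c _ => hI.nonneg _)
  · rw [form_yW hd, inv_mul_le_iff₀ (TW_pos hd)]
    have hb : ∀ c, C.form G a (v * d.lwS C hF c) (v * d.lwS C hF c) ≤
        (2 * d.B ^ 3) ^ 2 * C.form G a v v := fun c => by
      rw [← CovForm.nrm_sq hI, ← CovForm.nrm_sq hI v, ← mul_pow]
      exact pow_le_pow_left₀ (CovForm.nrm_nonneg _) (nrm_lwS_le hd hG a v c) 2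
    refine (Finset.sum_le_sum fun c _ => hb c).trans ?_
    rw [Finset.sum_const, Finset.card_univ, Fintype.card_fin, nsmul_eq_mul, TW]
    nlinarith [mul_nonneg (sq_nonneg (2 * d.B ^ 3)) (hI.nonneg v)]

/-- The smoothed weighted budget as an operator. -/
noncomputable def budW (d : WData X r) (C : SCore M X) (hF : ∀ c, (d.F c).FromNrm C) (m : ℕ) :
    C.ops :=
  ((oneSub (V := C.ops) (d.yW C hF)) ^ m) (C.mulS d.U)

theorem budW_LW (hd : d.OkW) (m : ℕ) (w : Fin r → C(X, ℝ)) :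
    (d.budW C hF m : Module.End ℝ C(X, ℝ)) (d.LW w) = d.LW ((d.stepW ^ m) w) := by
  induction m generalizing w with
  | zero =>
    have h : ∀ c f, d.U * d.Lw c f = d.Lw c f := fun c f => by
      rw [← act_Lw hd c f, ← mul_assoc, LData.U_mul_act hd.base]
    simp [budW, LW_apply, map_sum, h]
  | succ m ih =>
    have e : d.LW (d.stepW w) = d.LW w - d.TW⁻¹ • ∑ c, d.Lw c (d.Lt c (d.LW w)) := by
      rw [LW_apply, LW_apply]
      simp [stepW_apply, map_sub, Finset.sum_sub_distrib, Finset.smul_sum, LW_apply]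
    rw [pow_succ, Module.End.mul_apply, ← ih, e, map_sub, budW, pow_succ', Module.End.mul_apply,
      oneSub_apply, ← budW, yW, LinearMap.mulRight_apply, yWOp]
    simp [map_sum, coe_lwS_apply, coe_ltS_apply]

theorem budget_le (hd : d.OkW) {m : ℕ} (hm : 0 < m) :
    ∑ c, C.form (C.r 1) 1 (d.budW C hF m * d.lwS C hF c) (d.budW C hF m * d.lwS C hF c) ≤
      d.TW / m * C.ig d.U := by
  have hG : (0 : M) ≤ C.r 1 := C.r_nonneg zero_le_one
  have hI := C.isSemi_form hG 1
  have hx := isPosContr_yW (hF := hF) hd hG (1 : M)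
  have h : ((m : ℝ) + 1) * C.form (C.r 1) 1 (d.budW C hF m) (d.yW C hF (d.budW C hF m)) ≤
      C.form (C.r 1) 1 (C.mulS d.U) (C.mulS d.U) := hx.small hI m (C.mulS d.U)
  have e : ∑ c, C.form (C.r 1) 1 (d.budW C hF m * d.lwS C hF c) (d.budW C hF m * d.lwS C hF c) =
      d.TW * C.form (C.r 1) 1 (d.budW C hF m) (d.yW C hF (d.budW C hF m)) := by
    rw [form_yW hd, ← mul_assoc, mul_inv_cancel₀ (TW_pos hd).ne', one_mul]
  have h0 := hx.nonneg (d.budW C hF m)
  have hU : C.form (C.r 1) 1 (C.mulS d.U) (C.mulS d.U) = C.ig d.U := by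
    rw [C.form_mulS _ _ (C.r_isSelfAdjoint _), C.Er_r, mul_one, one_mul, star_one, mul_one,
      SCore.ig]
    congr 2
    ext x
    rcases hd.base.U_01 x with h | h <;> simp [h]
  rw [hU] at h
  have hm' : (0 : ℝ) < m := Nat.cast_pos.2 hm
  rw [e, div_mul_eq_mul_div, le_div_iff₀ hm']
  nlinarith [TW_pos hd]

end WData

end Vale.Agent.P078.Quad
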