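import Vale.Agent.P078.Quad.RowsDefs

/-! Rows of the weighted smoothed projection as operators on functions. -/

namespace Vale.Agent.P078.Quad

set_option linter.unusedSectionVars false

open Filter Topology ComplexOrder
open Vale.Agent.P078.Tracial Vale.Agent.P078.AllMasa

variable {M X : Type} [CStarAlgebra M] [PartialOrder M] [StarOrderedRing M]
variable [TopologicalSpace X] [CompactSpace X] [T2Space X] [TotallyDisconnectedSpace X]
variable {r : ℕ} {d : WData X r}

namespace WData

theorem TW_pos (hd : d.OkW) : 0 < d.TW := by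
  have := hd.base.B_pos
  rw [TW]
  positivity

theorem Lw_act (hd : d.OkW) (c : Fin r) (f : C(X, ℝ)) : d.Lw c (d.act c * f) = d.Lw c f := by
  rw [Lw_apply, Lw_apply, mul_left_comm (d.μ c), LData.Lc_act hd.base]

theorem act_Lw (hd : d.OkW) (c : Fin r) (f : C(X, ℝ)) : d.act c * d.Lw c f = d.Lw c f := by
  rw [Lw_apply, mul_left_comm, LData.act_Lc hd.base]

theorem act_Lt (hd : d.OkW) (c : Fin r) (f : C(X, ℝ)) : d.act c * d.Lt c f = d.Lt c f := by
  rw [Lt_apply, mul_left_comm, LData.act_Lc hd.base]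

theorem LW_cut (hd : d.OkW) (u : Fin r → C(X, ℝ)) : d.LW (d.toLData.cut u) = d.LW u := by
  simp [LW_apply, LData.cut_apply, Lw_act hd]

theorem cut_stepW_comm (hd : d.OkW) : Commute d.toLData.cut d.stepW := by
  refine LinearMap.ext fun u => funext fun c => ?_
  simp [LData.cut_apply, stepW_apply, LW_cut hd, act_Lt hd, mul_sub]

theorem PW_eq (hd : d.OkW) (m : ℕ) (u : Fin r → C(X, ℝ)) :
    d.PW m u = d.toLData.cut ((d.stepW ^ m) u) := by
  rw [PW, LinearMap.comp_apply, ← Module.End.mul_apply,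
    ← ((cut_stepW_comm hd).pow_right m).eq, Module.End.mul_apply]

theorem act_PW (hd : d.OkW) (m : ℕ) (u : Fin r → C(X, ℝ)) (c : Fin r) :
    d.act c * d.PW m u c = d.PW m u c := by
  rw [PW_eq hd, LData.cut_apply, ← mul_assoc, LData.act_mul_act hd.base]

variable {C : SCore M X} {hF : ∀ c, (d.F c).FromNrm C}

theorem coe_lwS_apply (c : Fin r) (f : C(X, ℝ)) :
    (d.lwS C hF c : Module.End ℝ C(X, ℝ)) f = d.Lw c f := by
  simp [lwS, Lw_apply]

theorem coe_ltS_apply (c : Fin r) (f : C(X, ℝ)) :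
    (d.ltS C hF c : Module.End ℝ C(X, ℝ)) f = d.Lt c f := by
  simp [ltS, Lt_apply]

theorem rowSumW_apply (u : Fin r → C.ops) :
    d.rowSumW C hF u = ∑ c, u c * d.ltS C hF c := by
  simp [rowSumW]

theorem xW_apply (u : Fin r → C.ops) (c : Fin r) :
    d.xW C hF u c = d.TW⁻¹ • (d.rowSumW C hF u * d.lwS C hF c) := by
  simp [xW]

theorem toRow_xW (u : Fin r → C.ops) (w : Fin r → C(X, ℝ)) :
    LData.toRow (fun c =>
        ((oneSub (V := Fin r → C.ops) (d.xW C hF) u c : C.ops) : Module.End ℝ C(X, ℝ))) w =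
      LData.toRow (fun c => ((u c : C.ops) : Module.End ℝ C(X, ℝ))) (d.stepW w) := by
  simp only [LData.toRow, oneSub_apply, Pi.sub_apply, xW_apply, rowSumW_apply, stepW_apply,
    Subalgebra.coe_sub, Subalgebra.coe_smul, Subalgebra.coe_mul, AddSubmonoidClass.coe_finset_sum,
    LinearMap.sub_apply, LinearMap.smul_apply, Module.End.mul_apply, LinearMap.sum_apply,
    coe_lwS_apply, coe_ltS_apply, map_sub, map_smul, Finset.sum_sub_distrib, ← Finset.smul_sum]
  rw [Finset.sum_comm]
  simp [LW_apply, map_sum]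

theorem toRow_rowW (W : C.ops) (c : Fin r) (m : ℕ) (w : Fin r → C(X, ℝ)) :
    LData.toRow (fun c' => ((d.rowW C hF W c m c' : C.ops) : Module.End ℝ C(X, ℝ))) w =
      (W : Module.End ℝ C(X, ℝ)) (d.toLData.cut ((d.stepW ^ m) w) c) := by
  induction m generalizing w with
  | zero =>
    simp only [rowW, LData.toRow, pow_zero, Module.End.one_apply, LData.cut_apply]
    rw [Finset.sum_eq_single c (fun c' _ h => by simp [Pi.single_eq_of_ne h]) (by simp)]
    simp
  | succ m ih =>
    simp only [rowW]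
    rw [pow_succ' (oneSub (V := Fin r → C.ops) (d.xW C hF)), Module.End.mul_apply, toRow_xW]
    simp only [rowW] at ih
    rw [ih, pow_succ, Module.End.mul_apply]

theorem coe_rowW_apply (hd : d.OkW) (W : C.ops) (c c' : Fin r) (m : ℕ) (f : C(X, ℝ)) :
    ((d.rowW C hF W c m c' : C.ops) : Module.End ℝ C(X, ℝ)) f =
      (W : Module.End ℝ C(X, ℝ)) (d.PW m (Pi.single c' f) c) := by
  rw [PW_eq hd, ← toRow_rowW (hF := hF), LData.toRow,
    Finset.sum_eq_single c' (fun b _ h => by simp [Pi.single_eq_of_ne h]) (by simp)]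
  simp

theorem rowW_eq_mul (hd : d.OkW) (W : C.ops) (c c' : Fin r) (m : ℕ) :
    d.rowW C hF W c m c' = W * d.rowW C hF 1 c m c' :=
  Subtype.ext (LinearMap.ext fun f => by simp [coe_rowW_apply hd])

/-- One block of the smoothed projection as an operator on functions. -/
noncomputable def rowOp (d : WData X r) (c : Fin r) (m : ℕ) (c' : Fin r) :
    Module.End ℝ C(X, ℝ) :=
  (LinearMap.proj c).comp ((d.PW m).comp (LinearMap.single ℝ (fun _ => C(X, ℝ)) c'))

theorem rowOp_mem_wtSpan (c : Fin r) (m : ℕ) (c' : Fin r) : d.rowOp c m c' ∈ wtSpan X := by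
  induction m generalizing c c' with
  | zero =>
    by_cases h : c' = c
    · subst h
      convert mulC_mem_wtSpan (d.act c') using 1
      exact LinearMap.ext fun f => by simp [rowOp, PW, LData.cut_apply]
    · convert (wtSpan X).zero_mem using 1
      exact LinearMap.ext fun f => by
        simp [rowOp, PW, LData.cut_apply, Pi.single_eq_of_ne (Ne.symm h)]
  | succ m ih =>
    have e : d.rowOp c (m + 1) c' = d.rowOp c m c' - d.TW⁻¹ •
        (mulC (d.μ c) * d.toLData.Lc c * mulC (d.n c) *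
          ∑ k, mulC (d.n k) * d.toLData.Lc k * mulC (d.μ k) * d.rowOp k m c') :=
      LinearMap.ext fun f => by
        simp [rowOp, PW, pow_succ', stepW_apply, Lt_apply, LW_apply, Lw_apply]
    rw [e]
    exact (wtSpan X).sub_mem (ih c c') ((wtSpan X).smul_mem _ (mul_mem_wtSpan
      (mul_mem_wtSpan (mul_mem_wtSpan (mulC_mem_wtSpan _) (d.toLData.Lc_mem_wtSpan c))
        (mulC_mem_wtSpan _))
      ((wtSpan X).sum_mem fun k _ => mul_mem_wtSpan (mul_mem_wtSpan (mul_mem_wtSpan
        (mulC_mem_wtSpan _) (d.toLData.Lc_mem_wtSpan k)) (mulC_mem_wtSpan _)) (ih k c'))))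

end WData

end Vale.Agent.P078.Quad
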